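import Mathlib
import Vale.Agent.P036.QF.A

/-!
# P036: a local set on 31 planes

Labels are the elements of the cubic extension of `ZMod l`.  The kernels `N(a-b)` and `N(a-b)^3`
are written, up to coboundaries, on the 31 monomials of degree `1, …, 4` in the three conjugates
with exponents at most `3`; the real and the imaginary part share the planes.
-/

namespace Vale.Agent.N036

open Finset Vale.Agent.P036.QF Vale.Agent.P036.QF.LS

/-- index set of the planes -/
abbrev Ix : Type := Option (Fin 10 × Fin 3)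

theorem card_Ix : Fintype.card Ix = 31 := by
  simp [Fintype.card_option, Fintype.card_prod]

/-- orbit representatives of the exponents -/
def ex : Fin 10 → ℕ × ℕ × ℕ
  | 0 => (1, 0, 0)
  | 1 => (2, 0, 0)
  | 2 => (1, 1, 0)
  | 3 => (3, 0, 0)
  | 4 => (2, 1, 0)
  | 5 => (2, 0, 1)
  | 6 => (3, 1, 0)
  | 7 => (3, 0, 1)
  | 8 => (2, 2, 0)
  | 9 => (2, 1, 1)

/-- complementary exponents -/
def ey : Fin 10 → ℕ × ℕ × ℕ
  | 0 => (2, 3, 3)
  | 1 => (1, 3, 3)
  | 2 => (2, 2, 3)
  | 3 => (0, 3, 3)
  | 4 => (1, 2, 3)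
  | 5 => (1, 3, 2)
  | 6 => (0, 2, 3)
  | 7 => (0, 3, 2)
  | 8 => (1, 1, 3)
  | 9 => (1, 2, 2)

/-- coefficients -/
def cf : Fin 10 → ℤ
  | 0 => 3
  | 1 => -3
  | 2 => -9
  | 3 => 1
  | 4 => 9
  | 5 => 9
  | 6 => -3
  | 7 => -3
  | 8 => -9
  | 9 => -27

section
variable {l : ℕ} [Fact l.Prime]

/-- the Frobenius map -/
noncomputable def fr (l : ℕ) [Fact l.Prime] : Lab l →+* Lab l := frobenius (Lab l) l

theorem fr_apply (x : Lab l) : fr l x = x ^ l := rfl

theorem fr3 (x : Lab l) : fr l (fr l (fr l x)) = x := by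
  have : Fintype (Lab l) := Fintype.ofFinite _
  have h := FiniteField.pow_card x
  rw [← Nat.card_eq_fintype_card, card_lab] at h
  rw [fr_apply, fr_apply, fr_apply, ← pow_mul, ← pow_mul, show l * (l * l) = l ^ 3 by ring, h]

/-- trace -/
noncomputable def tr (x : Lab l) : ZMod l := Algebra.trace (ZMod l) (Lab l) x

/-- norm -/
noncomputable def nm (x : Lab l) : ZMod l := Algebra.norm (ZMod l) x

theorem tr_eq (x : Lab l) :
    algebraMap (ZMod l) (Lab l) (tr x) = x + fr l x + fr l (fr l x) := by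
  unfold tr
  rw [FiniteField.algebraMap_trace_eq_sum_pow, GaloisField.finrank l (by norm_num),
    Nat.card_zmod]
  simp only [Finset.sum_range_succ, Finset.sum_range_zero, fr_apply, ← pow_mul]
  ring

theorem nm_eq (x : Lab l) :
    algebraMap (ZMod l) (Lab l) (nm x) = x * fr l x * fr l (fr l x) := by
  unfold nm
  rw [FiniteField.algebraMap_norm_eq_prod_pow, GaloisField.finrank l (by norm_num),
    Nat.card_zmod]
  simp only [Finset.prod_range_succ, Finset.prod_range_zero, fr_apply, ← pow_mul]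
  ring

theorem nm_ne {x : Lab l} (hx : x ≠ 0) : nm x ≠ 0 := (Algebra.norm_ne_zero_iff).mpr hx

/-- monomial in the conjugates -/
noncomputable def mon (e : ℕ × ℕ × ℕ) (x : Lab l) : Lab l :=
  x ^ e.1 * fr l x ^ e.2.1 * fr l (fr l x) ^ e.2.2

theorem tr_mul (x y : Lab l) :
    ∑ k, (basis3 l).repr x k * tr (basis3 l k * y) = tr (x * y) := by
  unfold tr
  conv_rhs => rw [← (basis3 l).sum_repr x]
  rw [Finset.sum_mul, map_sum]
  refine Finset.sum_congr rfl fun k _ => ?_
  rw [smul_mul_assoc, map_smul, smul_eq_mul]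

/-- first family -/
noncomputable def uu (a : Lab l) : Ix → ZMod l
  | none => nm a
  | some (i, k) => (basis3 l).repr (mon (ex i) a) k

/-- second family, real part -/
noncomputable def vr (a : Lab l) : Ix → ZMod l
  | none => 0
  | some (i, k) => if i = 0 then tr (basis3 l k * mon (0, 1, 1) a) else 0

/-- second family, imaginary part -/
noncomputable def vi (a : Lab l) : Ix → ZMod l
  | none => 27 * nm a ^ 2
  | some (i, k) => (cf i : ZMod l) * tr (basis3 l k * mon (ey i) a)

theorem skew_vr (a b : Lab l) : skew uu vr a b = nm (a - b) - nm a + nm b := by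
  have h1 : skew uu vr a b = tr (mon (1, 0, 0) a * mon (0, 1, 1) b) -
      tr (mon (1, 0, 0) b * mon (0, 1, 1) a) := by
    unfold skew
    rw [Fintype.sum_option, Fintype.sum_prod_type, Fin.sum_univ_succ, ← tr_mul, ← tr_mul,
      ← Finset.sum_sub_distrib]
    have h0 : ∑ i : Fin 9, ∑ k : Fin 3, (uu a (some (i.succ, k)) * vr b (some (i.succ, k)) -
        vr a (some (i.succ, k)) * uu b (some (i.succ, k))) = 0 := by
      refine Finset.sum_eq_zero fun i _ => Finset.sum_eq_zero fun k _ => ?_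
      simp [vr, Fin.succ_ne_zero]
    rw [h0]
    simp only [uu, vr, ex, if_true]
    simp only [mul_zero, zero_mul, sub_zero, zero_add, add_zero]
    exact Finset.sum_congr rfl fun k _ => by ring
  rw [h1]
  apply (algebraMap (ZMod l) (Lab l)).injective
  simp only [map_sub, map_add, tr_eq, nm_eq, mon, map_mul, map_pow, fr3]
  ring

theorem skew_vi (a b : Lab l) : skew uu vi a b = nm (a - b) ^ 3 - nm a ^ 3 + nm b ^ 3 := by
  have h1 : skew uu vi a b = 27 * (nm a * nm b ^ 2 - nm a ^ 2 * nm b) +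
      ∑ i : Fin 10, (cf i : ZMod l) * (tr (mon (ex i) a * mon (ey i) b) -
        tr (mon (ex i) b * mon (ey i) a)) := by
    unfold skew
    rw [Fintype.sum_option, Fintype.sum_prod_type]
    congr 1
    · simp only [uu, vi]; ring
    · refine Finset.sum_congr rfl fun i _ => ?_
      rw [← tr_mul, ← tr_mul, ← Finset.sum_sub_distrib, Finset.mul_sum]
      refine Finset.sum_congr rfl fun k _ => ?_
      simp only [uu, vi]; ring
  rw [h1]
  apply (algebraMap (ZMod l) (Lab l)).injective
  simp only [Fin.sum_univ_succ, Fin.sum_univ_zero, cf, ex, ey, Fin.succ_zero_eq_one,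
    Fin.succ_one_eq_two, Fin.reduceSucc]
  simp only [map_sub, map_add, tr_eq, nm_eq, mon, map_mul, map_pow, fr3, map_intCast, map_zero,
    map_ofNat]
  push_cast
  ring

/-- the class of a label -/
noncomputable def lab (l : ℕ) [Fact l.Prime] (a : Lab l) : Ix ⊕ Ix → ZMod l × ZMod l
  | .inl j => (uu a j, 0)
  | .inr j => (vr a j, vi a j)

theorem om_re' {d : ℤ} {x y : Ix ⊕ Ix → ℤ√d} {a b : Lab l} (hx : cls l x = lab l a)
    (hy : cls l y = lab l b) : (((om x y).re : ℤ) : ZMod l) = skew uu vr a b := by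
  unfold om skew
  rw [zre_sum', Int.cast_sum]
  refine Finset.sum_congr rfl fun j _ => ?_
  simp only [Zsqrtd.re_sub, Zsqrtd.re_mul, Int.cast_sub, Int.cast_add, Int.cast_mul,
      cls_re hx, cls_re hy, cls_im hx, cls_im hy, lab]
  ring

theorem om_im' {d : ℤ} {x y : Ix ⊕ Ix → ℤ√d} {a b : Lab l} (hx : cls l x = lab l a)
    (hy : cls l y = lab l b) : (((om x y).im : ℤ) : ZMod l) = skew uu vi a b := by
  unfold om skew
  rw [zim_sum', Int.cast_sum]
  refine Finset.sum_congr rfl fun j _ => ?_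
  simp only [Zsqrtd.im_sub, Zsqrtd.im_mul, Int.cast_sub, Int.cast_add, Int.cast_mul,
      cls_re hx, cls_re hy, cls_im hx, cls_im hy, lab]
  ring

theorem lab_injective : Function.Injective (lab l) := by
  intro a b h
  apply (basis3 l).repr.injective
  ext k
  have h1 : uu a (some (0, k)) = uu b (some (0, k)) :=
    congrArg Prod.fst (congrFun h (.inl (some (0, k))))
  simpa [uu, ex, mon] using h1

end

/-- the local set on 31 planes -/
theorem local31 (d : ℤ) (l : ℕ) (hl : l.Prime) (h5 : 5 ≤ l) :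
    ∃ S : Finset (Ix ⊕ Ix → ZMod l × ZMod l), S.card = l ^ 3 ∧ Local d l S := by
  classical
  have : Fact l.Prime := ⟨hl⟩
  have h3 : l ≠ 3 := by omega
  have : Fintype (Lab l) := Fintype.ofFinite _
  refine ⟨Finset.univ.image (lab l), ?_, ?_⟩
  · rw [Finset.card_image_of_injective _ lab_injective, Finset.card_univ,
      ← Nat.card_eq_fintype_card, card_lab]
  · intro z q y hz hq hy hzq hqy hzy h
    rw [Finset.mem_image] at hz hq hy
    obtain ⟨a, -, ha⟩ := hz
    obtain ⟨b, -, hb⟩ := hq
    obtain ⟨c, -, hc⟩ := hy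
    rw [om_sub3, dvd_iff_cast, Zsqrtd.re_add, Zsqrtd.re_add, Zsqrtd.im_add, Zsqrtd.im_add,
      Int.cast_add, Int.cast_add, Int.cast_add, Int.cast_add,
      om_re' ha.symm hb.symm, om_re' hb.symm hc.symm, om_re' hc.symm ha.symm,
      om_im' ha.symm hb.symm, om_im' hb.symm hc.symm, om_im' hc.symm ha.symm,
      skew_vr, skew_vr, skew_vr, skew_vi, skew_vi, skew_vi] at h
    have hab : a ≠ b := by rintro rfl; exact hzq (ha.symm.trans hb)
    have hbc : b ≠ c := by rintro rfl; exact hqy (hb.symm.trans hc)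
    have hca : c ≠ a := by rintro rfl; exact hzy (ha.symm.trans hc)
    refine cubes_aux (three_ne l h3) (nm_ne (sub_ne_zero.2 hab)) (nm_ne (sub_ne_zero.2 hbc))
      (nm_ne (sub_ne_zero.2 hca)) ?_ ?_
    · linear_combination h.1
    · linear_combination h.2

end Vale.Agent.N036
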