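import Mathlib

/-!
# P036: numerical part of the choice of parameters on 31 planes
-/

namespace Vale.Agent.N036

open Filter

theorem numA1 (t l p n C q a b c ν : ℕ) (ht : 1 ≤ t) (hl2 : l ≤ 2 * t ^ q)
    (hp2 : p ≤ 2 * (C * (l * t ^ a) ^ 4)) (hn : n ≤ t ^ ν)
    (hB : 2 * (2 * C) ^ 32 * 2 ^ 125 ≤ t) (h1 : ν + 1 + 5 * a + 125 * q ≤ 4 * c + b) :
    2 * (n * p ^ 32) ≤ (t ^ c) ^ 4 * (l ^ 3 * ((t ^ a) ^ 123 * t ^ b)) := by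
  calc 2 * (n * p ^ 32) ≤ 2 * (t ^ ν * (2 * (C * (l * t ^ a) ^ 4)) ^ 32) := by gcongr
    _ = 2 * (2 * C) ^ 32 * l ^ 125 * (t ^ ν * (t ^ a) ^ 128 * l ^ 3) := by ring
    _ ≤ 2 * (2 * C) ^ 32 * (2 * t ^ q) ^ 125 * (t ^ ν * (t ^ a) ^ 128 * l ^ 3) := by gcongr
    _ = (2 * (2 * C) ^ 32 * 2 ^ 125) * ((t ^ q) ^ 125 * t ^ ν * (t ^ a) ^ 128 * l ^ 3) := by
        rw [mul_pow 2 (t ^ q)]; ring
    _ ≤ t * ((t ^ q) ^ 125 * t ^ ν * (t ^ a) ^ 128 * l ^ 3) := by gcongr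
    _ = t ^ (1 + q * 125 + ν + a * 128) * l ^ 3 := by
        rw [pow_add, pow_add, pow_add, pow_mul, pow_mul]; ring
    _ ≤ t ^ (c * 4 + (a * 123 + b)) * l ^ 3 :=
        Nat.mul_le_mul_right _ (Nat.pow_le_pow_right ht (by omega))
    _ = _ := by rw [pow_add, pow_add, pow_mul, pow_mul]; ring

theorem numA2 (t l p G q a b c : ℕ) (ht : 1 ≤ t) (hl1 : t ^ q ≤ l)
    (hp1 : (l * t ^ a) ^ 4 ≤ p) (hG : 12 * G ≤ t) (h2 : 4 * c + 2 * b + 1 ≤ 249 * q + 6 * a) :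
    12 * ((t ^ c) ^ 4 * G) * l ^ 3 * ((t ^ a) ^ 123 * t ^ b) ^ 2 ≤ p ^ 63 := by
  calc 12 * ((t ^ c) ^ 4 * G) * l ^ 3 * ((t ^ a) ^ 123 * t ^ b) ^ 2
      = (12 * G) * ((t ^ c) ^ 4 * (t ^ a) ^ 246 * (t ^ b) ^ 2) * l ^ 3 := by ring
    _ ≤ t * ((t ^ c) ^ 4 * (t ^ a) ^ 246 * (t ^ b) ^ 2) * l ^ 3 := by gcongr
    _ = t ^ (1 + (c * 4 + a * 246 + b * 2)) * l ^ 3 := by
        rw [pow_add, pow_add, pow_add, pow_mul, pow_mul, pow_mul, pow_one]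
    _ ≤ t ^ (q * 249 + a * 252) * l ^ 3 :=
        Nat.mul_le_mul_right _ (Nat.pow_le_pow_right ht (by omega))
    _ = (t ^ q) ^ 249 * (t ^ a) ^ 252 * l ^ 3 := by rw [pow_add, pow_mul, pow_mul]
    _ ≤ l ^ 249 * (t ^ a) ^ 252 * l ^ 3 := by gcongr
    _ = ((l * t ^ a) ^ 4) ^ 63 := by ring
    _ ≤ p ^ 63 := by gcongr

theorem numA3 (t l p G q a c : ℕ) (ht : 1 ≤ t) (hl1 : t ^ q ≤ l) (hq : 1 ≤ q)
    (hp1 : (l * t ^ a) ^ 4 ≤ p) (hG : 8 * G ≤ t) (h4 : c ≤ 2 * q + 2 * a) :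
    8 * ((t ^ c) ^ 4 * G) ≤ p ^ 32 := by
  calc 8 * ((t ^ c) ^ 4 * G) = (8 * G) * (t ^ c) ^ 4 := by ring
    _ ≤ t * (t ^ c) ^ 4 := by gcongr
    _ = t ^ (1 + c * 4) := by rw [pow_add, pow_mul, pow_one]
    _ ≤ t ^ (q * 128 + a * 128) := Nat.pow_le_pow_right ht (by omega)
    _ = (t ^ q) ^ 128 * (t ^ a) ^ 128 := by rw [pow_add, pow_mul, pow_mul]
    _ ≤ l ^ 128 * (t ^ a) ^ 128 := by gcongr
    _ = ((l * t ^ a) ^ 4) ^ 32 := by ring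
    _ ≤ p ^ 32 := by gcongr

theorem numA4 (t l p G q a b c e : ℕ) (ht : 1 ≤ t) (hl2 : l ≤ 2 * t ^ q)
    (hp1 : (l * t ^ a) ^ 4 ≤ p) (hG : 80000 * 576 ^ 61 * 2 ^ 119 * G ≤ t)
    (h3 : 61 * e + 4 * c + 119 * q + 1 ≤ 63 * a) :
    8 * ((t ^ c) ^ 4 * G) * (10000 * ((l * t ^ a) ^ 123 * (l * t ^ b)) *
      (9 * (l * t ^ a) * (64 * l * t ^ e)) ^ 61 * (l * t ^ a) ^ 4) ≤
      l ^ 3 * ((t ^ a) ^ 123 * t ^ b) * p ^ 32 := by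
  obtain ⟨K, hK⟩ : ∃ K : ℕ, K = 576 ^ 61 := ⟨_, rfl⟩
  have e1 : (9 * (l * t ^ a) * (64 * l * t ^ e)) ^ 61 =
      K * (l ^ 122 * (t ^ a) ^ 61 * (t ^ e) ^ 61) := by
    rw [hK, show 9 * (l * t ^ a) * (64 * l * t ^ e) = 576 * (l ^ 2 * t ^ a * t ^ e) by ring,
      mul_pow 576, mul_pow, mul_pow, ← pow_mul l]
  rw [e1]
  rw [← hK] at hG
  calc 8 * ((t ^ c) ^ 4 * G) * (10000 * ((l * t ^ a) ^ 123 * (l * t ^ b)) *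
        (K * (l ^ 122 * (t ^ a) ^ 61 * (t ^ e) ^ 61)) * (l * t ^ a) ^ 4)
      = 80000 * K * G * l ^ 119 *
        ((t ^ c) ^ 4 * (t ^ a) ^ 65 * (t ^ e) ^ 61 * (l ^ 131 * (t ^ a) ^ 123 * t ^ b)) := by ring
    _ ≤ 80000 * K * G * (2 * t ^ q) ^ 119 *
        ((t ^ c) ^ 4 * (t ^ a) ^ 65 * (t ^ e) ^ 61 * (l ^ 131 * (t ^ a) ^ 123 * t ^ b)) := by gcongr
    _ = (80000 * K * 2 ^ 119 * G) * ((t ^ q) ^ 119 * (t ^ c) ^ 4 * (t ^ a) ^ 65 * (t ^ e) ^ 61) *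
        (l ^ 131 * (t ^ a) ^ 123 * t ^ b) := by rw [mul_pow 2 (t ^ q)]; ring
    _ ≤ t * ((t ^ q) ^ 119 * (t ^ c) ^ 4 * (t ^ a) ^ 65 * (t ^ e) ^ 61) *
        (l ^ 131 * (t ^ a) ^ 123 * t ^ b) := by gcongr
    _ = t ^ (1 + (q * 119 + c * 4 + a * 65 + e * 61)) * (l ^ 131 * (t ^ a) ^ 123 * t ^ b) := by
        rw [pow_add, pow_add, pow_add, pow_add, pow_mul, pow_mul, pow_mul, pow_mul, pow_one]
    _ ≤ t ^ (a * 128) * (l ^ 131 * (t ^ a) ^ 123 * t ^ b) :=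
        Nat.mul_le_mul_right _ (Nat.pow_le_pow_right ht (by omega))
    _ = l ^ 3 * ((t ^ a) ^ 123 * t ^ b) * ((l * t ^ a) ^ 4) ^ 32 := by rw [pow_mul]; ring
    _ ≤ _ := by gcongr

/-- assembling the four inequalities -/
theorem numMain (n p E y s κ Col : ℕ) (A1 : 2 * (n * p ^ 32) ≤ y * (s * κ))
    (A2 : 12 * E * s * κ ^ 2 ≤ p ^ 63) (A3 : 8 * E ≤ p ^ 32) (A4 : 8 * E * Col ≤ s * κ * p ^ 32) :
    n * 1 ^ 3 * p ^ 95 + 3 * E * y * s ^ 2 * κ ^ 3 + E * y * (s * κ + Col) * p ^ 31 ≤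
      1 ^ 2 * (y * (s * κ)) * p ^ 63 := by
  obtain ⟨R, hR⟩ : ∃ R, R = y * (s * κ) * p ^ 63 := ⟨_, rfl⟩
  have B1 : 2 * (n * p ^ 95) ≤ R := by
    calc 2 * (n * p ^ 95) = 2 * (n * p ^ 32) * p ^ 63 := by ring
      _ ≤ y * (s * κ) * p ^ 63 := by gcongr
      _ = R := hR.symm
  have B2 : 4 * (3 * E * y * s ^ 2 * κ ^ 3) ≤ R := by
    calc 4 * (3 * E * y * s ^ 2 * κ ^ 3) = y * (s * κ) * (12 * E * s * κ ^ 2) := by ring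
      _ ≤ y * (s * κ) * p ^ 63 := by gcongr
      _ = R := hR.symm
  have B3 : 8 * (E * y * (s * κ) * p ^ 31) ≤ R := by
    calc 8 * (E * y * (s * κ) * p ^ 31) = y * (s * κ) * (8 * E * p ^ 31) := by ring
      _ ≤ y * (s * κ) * (p ^ 32 * p ^ 31) := by gcongr
      _ = R := by rw [hR]; ring
  have B4 : 8 * (E * y * Col * p ^ 31) ≤ R := by
    calc 8 * (E * y * Col * p ^ 31) = y * (8 * E * Col) * p ^ 31 := by ring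
      _ ≤ y * (s * κ * p ^ 32) * p ^ 31 := by gcongr
      _ = R := by rw [hR]; ring
  have e1 : n * 1 ^ 3 * p ^ 95 + 3 * E * y * s ^ 2 * κ ^ 3 + E * y * (s * κ + Col) * p ^ 31 =
      n * p ^ 95 + 3 * E * y * s ^ 2 * κ ^ 3 + E * y * (s * κ) * p ^ 31 +
        E * y * Col * p ^ 31 := by ring
  have e2 : 1 ^ 2 * (y * (s * κ)) * p ^ 63 = R := by rw [hR]; ring
  rw [e1, e2]
  omega

/-- growth condition -/
theorem growth (B CE c : ℕ) : ∀ᶠ t : ℕ in atTop,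
    B * ⌈(CE:ℝ) * (1 + c * Real.log t)⌉₊ ≤ t := by
  have hc : ∀ C : ℝ, ∀ᶠ t : ℕ in atTop, C ≤ (t:ℝ) := fun C =>
    tendsto_natCast_atTop_atTop.eventually (eventually_ge_atTop C)
  have hδ : (0:ℝ) < 1 / (2 * ((B:ℝ) * CE * c + 1)) := by positivity
  have h1 := Real.isLittleO_log_id_atTop.bound hδ
  filter_upwards [tendsto_natCast_atTop_atTop.eventually h1, hc 1, hc (2 * (B * (CE + 1)))]
    with t hl hl1 hl2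
  have hlog : 0 ≤ Real.log t := Real.log_nonneg hl1
  rw [Real.norm_of_nonneg hlog, id, Real.norm_of_nonneg (by positivity)] at hl
  have h2 : (⌈(CE:ℝ) * (1 + c * Real.log t)⌉₊ : ℝ) ≤ CE * (1 + c * Real.log t) + 1 :=
    (Nat.ceil_lt_add_one (by positivity)).le
  have h3 : ((B:ℝ) * CE * c + 1) * Real.log t ≤ t / 2 := by
    calc ((B:ℝ) * CE * c + 1) * Real.log t
        ≤ ((B:ℝ) * CE * c + 1) * (1 / (2 * ((B:ℝ) * CE * c + 1)) * t) := by gcongr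
      _ = t / 2 := by field_simp
  have h4 : (B:ℝ) * ⌈(CE:ℝ) * (1 + c * Real.log t)⌉₊ ≤ t := by
    calc (B:ℝ) * ⌈(CE:ℝ) * (1 + c * Real.log t)⌉₊ ≤ B * (CE * (1 + c * Real.log t) + 1) := by
          gcongr
      _ = B * (CE + 1) + (B * CE * c) * Real.log t := by ring
      _ ≤ t := by nlinarith
  exact_mod_cast h4

end Vale.Agent.N036
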