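import Mathlib
import Vale.Agent.P036.QF.D2
import Vale.Agent.P036.QF.E
import Vale.Agent.P036.QF.K4
import Vale.Agent.P036.QF.I
import Vale.Agent.N036.Loc
import Vale.Agent.N036.Num

/-!
# P036: choice of parameters on 31 planes
-/

namespace Vale.Agent.N036

open Finset Filter Vale.Agent.P036 Vale.Agent.P036.QF

theorem fin_ineq (M2 T x p A B : ℝ) (hM : 0 < M2) (hT : 0 < T) (hx : 0 ≤ x)
    (hp : 576600000 * M2 ^ 2 ≤ p) (hA : A ≤ M2) (hB : B ≤ 12 * T) (hB0 : 0 ≤ B)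
    (h : p / 2 ≤ (32 * A + 512 * 31 * M2) * (B * x)) : M2 ≤ T * x := by
  have h1 : (32 * A + 512 * 31 * M2) * (B * x) ≤ (16000 * M2) * (12 * T * x) := by
    apply mul_le_mul _ _ (by positivity) (by positivity)
    · linarith
    · gcongr
  have h2 : M2 * (288300000 * M2) ≤ M2 * (192000 * (T * x)) := by nlinarith
  have h3 := le_of_mul_le_mul_left h2 hM
  have h4 : 0 ≤ T * x := by positivity
  linarith

/-- lower bound for `Δ(n)`, `n ≤ t ^ ν`, with free exponents -/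
theorem points (q a b c e f ν α : ℕ) (hq : 1 ≤ q)
    (h1 : ν + 1 + 5 * a + 125 * q ≤ 4 * c + b) (h2 : 4 * c + 2 * b + 1 ≤ 249 * q + 6 * a)
    (h3 : 61 * e + 4 * c + 119 * q + 1 ≤ 63 * a) (h4 : c ≤ 2 * q + 2 * a)
    (h5 : a + b ≤ 2 * e) (h6 : b ≤ a) (h7 : f + 2 * a + q = 2 * c)
    (h8 : α + 4 * a + 2 * q = 4 * c) :
    ∃ t₀ : ℕ, ∀ t : ℕ, t₀ ≤ t → ∀ n : ℕ, 3 ≤ n → n ≤ t ^ ν →
      1 / (32 * (t:ℝ) ^ α) ≤ LB.heilDelta n := by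
  obtain ⟨CE, hCE, hdet⟩ := det_count
  obtain ⟨C, hC⟩ : ∃ C : ℕ, C = 576600000 := ⟨_, rfl⟩
  obtain ⟨B1, hB1⟩ : ∃ B1 : ℕ, B1 = 2 * (2 * C) ^ 32 * 2 ^ 125 := ⟨_, rfl⟩
  obtain ⟨B2, hB2⟩ : ∃ B2 : ℕ, B2 = 80000 * 576 ^ 61 * 2 ^ 119 := ⟨_, rfl⟩
  obtain ⟨t₀, ht₀⟩ := eventually_atTop.1 ((growth B2 CE c).and ((growth 12 CE c).and
    ((eventually_ge_atTop B1).and (eventually_ge_atTop 5))))
  refine ⟨t₀, fun t htt n hn3 hn => ?_⟩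
  obtain ⟨g2, g12, g1, ht5⟩ := ht₀ t htt
  obtain ⟨G, hG⟩ : ∃ G : ℕ, G = ⌈(CE:ℝ) * (1 + c * Real.log t)⌉₊ := ⟨_, rfl⟩
  rw [← hG] at g2 g12
  have ht1 : 1 ≤ t := by omega
  have htR : (1:ℝ) ≤ t := by exact_mod_cast ht1
  have htR0 : (0:ℝ) < t := by linarith
  -- the prime `l`
  obtain ⟨l, hl, hl1, hl2⟩ := Nat.exists_prime_lt_and_le_two_mul (t ^ q) (by positivity)
  have hl5 : 5 ≤ l := by
    calc 5 ≤ t := ht5
      _ = t ^ 1 := (pow_one t).symm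
      _ ≤ t ^ q := Nat.pow_le_pow_right ht1 hq
      _ ≤ l := hl1.le
  have hlpos : 0 < l := hl.pos
  have hlR0 : (0:ℝ) < l := by exact_mod_cast hlpos
  have hl1R : (t:ℝ) ^ q ≤ l := by exact_mod_cast hl1.le
  have hl2R : (l:ℝ) ≤ 2 * (t:ℝ) ^ q := by exact_mod_cast hl2
  -- the prime `p`
  obtain ⟨M, hM⟩ : ∃ M : ℕ, M = l * t ^ a := ⟨_, rfl⟩
  have hM0 : 0 < M := by rw [hM]; positivity
  have hlM : l ≤ M := by rw [hM]; exact Nat.le_mul_of_pos_right _ (by positivity)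
  obtain ⟨p, hp, hp1, hp2, d, hd, r, hr⟩ := exists_prime_phi (C * M ^ 4) (by rw [hC]; positivity)
  have : Fact p.Prime := ⟨hp⟩
  have hM4 : 0 < M ^ 4 := by positivity
  have hp0 : M ^ 4 ≤ p := by rw [hC] at hp1; omega
  obtain ⟨S, hS1, hS2⟩ := local31 d l hl hl5
  -- `w`
  obtain ⟨u, hu0, -, -, hu2, hu1, -, -⟩ := exists_approx hd (t ^ f) (by positivity)
  obtain ⟨N, hN⟩ : ∃ N : ℝ, N = (t:ℝ) ^ f := ⟨_, rfl⟩
  have hN0 : 0 < N := by rw [hN]; positivity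
  have hNc : ((t ^ f : ℕ) : ℝ) = N := by rw [hN]; push_cast; rfl
  rw [hNc] at hu1 hu2
  have hs1w : |s1 d ((l : ℤ√d) * u)| = l * |s1 d u| := by
    rw [s1_mul hd.pos.le, s1_natCast, abs_mul, abs_of_pos hlR0]
  have hs2w : |s2 d ((l : ℤ√d) * u)| = l * |s2 d u| := by
    rw [s2_mul hd.pos.le, s2_natCast, abs_mul, abs_of_pos hlR0]
  have hw0 : (l : ℤ√d) * u ≠ 0 := by
    intro h0
    have h1 : |s1 d ((l : ℤ√d) * u)| = 0 := by rw [h0]; simp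
    rw [hs1w] at h1
    have h2 : 0 < |s1 d u| := abs_pos.2 (s1_ne_zero hd hu0)
    have : 0 < (l:ℝ) * |s1 d u| := by positivity
    linarith
  have hu2' : |s2 d u| ≤ 1 / N := by
    refine hu2.trans ?_
    gcongr
    linarith
  obtain ⟨Y, hY⟩ : ∃ Y : ℕ, Y = t ^ c := ⟨_, rfl⟩
  have hYR : (Y:ℝ) = (t:ℝ) ^ c := by rw [hY]; push_cast; rfl
  have hY1 : 1 ≤ Y := by rw [hY]; exact Nat.one_le_iff_ne_zero.2 (by positivity)
  obtain ⟨M2, hM2⟩ : ∃ M2 : ℝ, M2 = (M:ℝ) ^ 2 := ⟨_, rfl⟩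
  have hM20 : 0 < M2 := by rw [hM2]; positivity
  have hM2e : M2 = (l:ℝ) ^ 2 * ((t:ℝ) ^ a) ^ 2 := by rw [hM2, hM]; push_cast; ring
  have hpR : 576600000 * M2 ^ 2 ≤ p := by
    have h0 : ((C * M ^ 4 : ℕ) : ℝ) ≤ p := by exact_mod_cast hp1.le
    rw [hC] at h0
    push_cast at h0
    rw [hM2, ← pow_mul]
    exact h0
  have hY2 : (Y:ℝ) ^ 2 = (t:ℝ) ^ q * ((t:ℝ) ^ a) ^ 2 * N := by
    rw [hYR, hN, ← pow_mul, ← pow_mul, ← pow_add, ← pow_add]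
    congr 1; omega
  have hs2wY : |s2 d ((l : ℤ√d) * u)| * (Y:ℝ) ^ 2 ≤ M2 := by
    rw [hs2w, hY2, hM2e]
    calc (l:ℝ) * |s2 d u| * ((t:ℝ) ^ q * ((t:ℝ) ^ a) ^ 2 * N)
        ≤ (l:ℝ) * (1 / N) * (l * ((t:ℝ) ^ a) ^ 2 * N) := by gcongr
      _ = (l:ℝ) ^ 2 * ((t:ℝ) ^ a) ^ 2 := by field_simp
  -- `E`
  have hEdet : ∀ z, detCount d Y z ≤ Y ^ 4 * G := by
    intro z
    have h0 := hdet d hd Y hY1 z
    have h1 : (CE:ℝ) * (1 + Real.log Y) ≤ G := by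
      rw [hG, hYR, Real.log_pow]; exact Nat.le_ceil _
    have h2 : (detCount d Y z : ℝ) ≤ (Y:ℝ) ^ 4 * G := by
      calc (detCount d Y z : ℝ) ≤ CE * (Y:ℝ) ^ 4 * (1 + Real.log Y) := h0
        _ = (Y:ℝ) ^ 4 * (CE * (1 + Real.log Y)) := by ring
        _ ≤ (Y:ℝ) ^ 4 * G := by gcongr
    exact_mod_cast h2
  -- collinear triples
  have hcJ : Fintype.card (Ix ⊕ Ix) = 62 := by rw [Fintype.card_sum, card_Ix]
  have hhM : l * t ^ b ≤ M := by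
    rw [hM]; exact Nat.mul_le_mul_left _ (Nat.pow_le_pow_right ht1 h6)
  have hcol := window_collinear hd (.inl none : Ix ⊕ Ix) M (l * t ^ b) (64 * l * t ^ e) hM0
    (by positivity) hhM
    (by
      rw [hcJ, hM]
      have e0 : 0 < l * t ^ b := by positivity
      have e1 : l * t ^ b + 2 ≤ 3 * (l * t ^ b) := by omega
      have e2 : t ^ a * t ^ b ≤ (t ^ e) ^ 2 := by
        rw [← pow_add, ← pow_mul]; exact Nat.pow_le_pow_right ht1 (by omega)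
      calc 16 * 62 * (l * t ^ a) * (l * t ^ b + 2) ≤ 16 * 62 * (l * t ^ a) * (3 * (l * t ^ b)) := by
            gcongr
        _ = 2976 * l ^ 2 * (t ^ a * t ^ b) := by ring
        _ ≤ 4096 * l ^ 2 * (t ^ e) ^ 2 := by gcongr; norm_num
        _ = (64 * l * t ^ e) ^ 2 := by ring)
  rw [hcJ, show 2 * 62 - 1 = 123 from rfl, show 62 - 1 = 61 from rfl] at hcol
  -- small inequalities
  have hnorm : |((l : ℤ√d) * u).norm| < (p : ℤ) := by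
    have h1 : ((|((l : ℤ√d) * u).norm| : ℤ) : ℝ) < p := by
      rw [Int.cast_abs, norm_eq hd.pos.le, abs_mul, hs1w, hs2w]
      have h3 : |s1 d u| * |s2 d u| ≤ 6 := by
        calc |s1 d u| * |s2 d u| ≤ (6 * N) * (1 / N) := by gcongr
          _ = 6 := by field_simp
      have h4 : (l:ℝ) * |s1 d u| * (l * |s2 d u|) ≤ 6 * (l:ℝ) ^ 2 := by
        calc (l:ℝ) * |s1 d u| * (l * |s2 d u|) = (|s1 d u| * |s2 d u|) * (l:ℝ) ^ 2 := by ring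
          _ ≤ 6 * (l:ℝ) ^ 2 := by gcongr
      have h5 : (l:ℝ) ^ 2 ≤ M2 := by
        rw [hM2]
        have : (l:ℝ) ≤ M := by exact_mod_cast hlM
        gcongr
      have h6 : (1:ℝ) ≤ M2 := by
        rw [hM2]; exact one_le_pow₀ (by exact_mod_cast hM0)
      nlinarith
    exact_mod_cast h1
  have hYp : 24 * Y ^ 2 < p := by
    have h0 : Y ^ 2 ≤ M ^ 4 := by
      rw [hY, hM]
      calc (t ^ c) ^ 2 ≤ t ^ (q * 4 + a * 4) := by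
            rw [← pow_mul]; exact Nat.pow_le_pow_right ht1 (by omega)
        _ = (t ^ q * t ^ a) ^ 4 := by rw [pow_add, pow_mul, pow_mul, mul_pow]
        _ ≤ (l * t ^ a) ^ 4 := by gcongr
    rw [hC] at hp1
    omega
  have hMp : 300000 * M ^ 4 < p := by rw [hC] at hp1; omega
  have hB : 512 * (Fintype.card Ix : ℝ) * (M:ℝ) ^ 2 *
      (32 * |s2 d ((l : ℤ√d) * u)| * (Y:ℝ) ^ 2 + 512 * (Fintype.card Ix : ℝ) * (M:ℝ) ^ 2) ≤
      p / 2 := by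
    rw [card_Ix, ← hM2, mul_assoc 32]
    push_cast
    nlinarith
  have hκ : (t ^ a) ^ 123 * t ^ b = (M / l) ^ (4 * Fintype.card Ix - 1) * (l * t ^ b / l) := by
    rw [card_Ix, hM, Nat.mul_div_cancel_left _ hlpos, Nat.mul_div_cancel_left _ hlpos]
  have A1 := numA1 t l p n C q a b c ν ht1 hl2 (by rw [← hM]; exact hp2) hn
    (by rw [← hB1]; exact g1) h1
  have A2 := numA2 t l p G q a b c ht1 hl1.le (by rw [← hM]; exact hp0) g12 h2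
  have A3 := numA3 t l p G q a c ht1 hl1.le hq (by rw [← hM]; exact hp0) (by omega) h4
  have A4 := numA4 t l p G q a b c e ht1 hl2 (by rw [← hM]; exact hp0)
    (by rw [← hB2]; exact g2) h3
  rw [← hM, ← hY] at A4
  rw [← hY] at A1 A2 A3
  have hmain := numMain n p (Y ^ 4 * G) (Y ^ 4) (l ^ 3) ((t ^ a) ^ 123 * t ^ b) _ A1 A2 A3 A4
  obtain ⟨P, hP1, hP2, hP3⟩ := core r hr (.inl none : Ix ⊕ Ix) hd l M (l * t ^ b) Y 1 n
    (Y ^ 4 * G) _ ((t ^ a) ^ 123 * t ^ b) ((l : ℤ√d) * u) S hS2 hlpos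
    (by rw [hM]; exact dvd_mul_right _ _) (dvd_mul_right _ _) hM0 (by positivity) hhM hY1
    one_pos hn3 (dvd_mul_right _ _) hw0 hnorm hYp hMp hEdet hκ hcol
    (by rw [card_Ix, hS1]; exact hmain) hB
  refine le_heilDelta_of_O hn3 (by positivity) d hd Y hY1 P hP1 hP2 ?_
  intro x hx y hy z hz hxy hyz hxz
  have h9 := hP3 x hx y hy z hz hxy hyz hxz
  rw [card_Ix, ← hM2, mul_assoc 32] at h9
  obtain ⟨X, hX⟩ : ∃ X : ℝ, X = |s1 d (dt x y z)| := ⟨_, rfl⟩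
  rw [← hX] at h9 ⊢
  have hX0 : 0 ≤ X := by rw [hX]; exact abs_nonneg _
  have h10 : |s1 d ((l : ℤ√d) * u)| ≤ 12 * ((t:ℝ) ^ q * N) := by
    rw [hs1w]
    calc (l:ℝ) * |s1 d u| ≤ (2 * (t:ℝ) ^ q) * (6 * N) := by gcongr
      _ = 12 * ((t:ℝ) ^ q * N) := by ring
  have h11 := fin_ineq M2 ((t:ℝ) ^ q * N) X p _ _ hM20 (by positivity) hX0 hpR hs2wY h10
    (abs_nonneg _) (by exact_mod_cast h9)
  have h12 : ((t:ℝ) ^ q) ^ 2 * ((t:ℝ) ^ a) ^ 2 ≤ (t:ℝ) ^ q * N * X := by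
    refine le_trans ?_ h11
    rw [hM2e]
    gcongr
  have h13 : (Y:ℝ) ^ 2 * ((t:ℝ) ^ q * N) = (t:ℝ) ^ α * (((t:ℝ) ^ q) ^ 2 * ((t:ℝ) ^ a) ^ 2) := by
    rw [hYR, hN, ← pow_mul, ← pow_mul, ← pow_mul, ← pow_add, ← pow_add, ← pow_add, ← pow_add]
    congr 1; omega
  have hα : 0 < (t:ℝ) ^ α := by positivity
  have hT : 0 < (t:ℝ) ^ q * N := by positivity
  have h14 : (Y:ℝ) ^ 2 ≤ (t:ℝ) ^ α * X := by
    have : (Y:ℝ) ^ 2 * ((t:ℝ) ^ q * N) ≤ ((t:ℝ) ^ α * X) * ((t:ℝ) ^ q * N) := by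
      rw [h13]
      calc (t:ℝ) ^ α * (((t:ℝ) ^ q) ^ 2 * ((t:ℝ) ^ a) ^ 2) ≤ (t:ℝ) ^ α * ((t:ℝ) ^ q * N * X) := by
            gcongr
        _ = _ := by ring
    exact le_of_mul_le_mul_right this hT
  calc 32 * (1 / (32 * (t:ℝ) ^ α)) * (Y:ℝ) ^ 2 = (Y:ℝ) ^ 2 / (t:ℝ) ^ α := by field_simp
    _ ≤ X := by rw [div_le_iff₀ hα]; linarith

end Vale.Agent.N036
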