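import Mathlib
import Vale.Agent.P036.QF.ExplicitSets
import Vale.Agent.N036.Par

/-!
# P036: the exponent `c < 55 / 7797`, in the square and in every region with an interior point
-/

namespace Vale.Agent.N036

open Finset Filter Vale.Agent.P036 Vale.Agent.P036.QF

theorem ev_pow (B s : ℝ) (hs : 0 < s) : ∀ᶠ n : ℕ in atTop, B ≤ (n:ℝ) ^ s :=
  ((tendsto_rpow_atTop hs).comp tendsto_natCast_atTop_atTop).eventually (eventually_ge_atTop B)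

theorem transfer (D : ℕ → ℝ) (ν α : ℕ) (c : ℝ) (hν : 1 ≤ ν) (hc : (α:ℝ) < (2 - c) * ν) (t₀ : ℕ)
    (H : ∀ t : ℕ, t₀ ≤ t → ∀ n : ℕ, 3 ≤ n → n ≤ t ^ ν → 1 / (32 * (t:ℝ) ^ α) ≤ D n) :
    ∃ n₀ : ℕ, ∀ n : ℕ, n₀ ≤ n → (n:ℝ) ^ (-2 + c) ≤ D n := by
  have hν0 : (0:ℝ) < ν := by exact_mod_cast hν
  have hs : 0 < 2 - c - α / ν := by
    rw [sub_pos, div_lt_iff₀ hν0]; exact hc
  obtain ⟨n₀, hn₀⟩ := eventually_atTop.1 ((ev_pow (32 * 2 ^ α) _ hs).and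
    ((ev_pow ((t₀:ℝ) + 1) (1 / ν) (by positivity)).and (eventually_ge_atTop 3)))
  refine ⟨n₀, fun n hn => ?_⟩
  obtain ⟨h1, h2, h3⟩ := hn₀ n hn
  have hn0 : (0:ℝ) < n := by exact_mod_cast (by omega : 0 < n)
  obtain ⟨x, hx⟩ : ∃ x : ℝ, x = (n:ℝ) ^ (1 / (ν:ℝ)) := ⟨_, rfl⟩
  rw [← hx] at h2
  have ht00 : (0:ℝ) ≤ t₀ := Nat.cast_nonneg _
  have hx0 : 0 < x := by linarith
  have hxν : x ^ ν = n := by
    rw [hx, ← Real.rpow_natCast, ← Real.rpow_mul hn0.le, one_div, inv_mul_cancel₀ hν0.ne',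
      Real.rpow_one]
  have hxα : x ^ α = (n:ℝ) ^ ((α:ℝ) / ν) := by
    rw [hx, ← Real.rpow_natCast, ← Real.rpow_mul hn0.le]
    congr 1
    ring
  have hxt : x ≤ (⌈x⌉₊ : ℕ) := Nat.le_ceil x
  have htx : ((⌈x⌉₊ : ℕ) : ℝ) ≤ 2 * x := by
    have := Nat.ceil_lt_add_one hx0.le
    linarith
  have htt : t₀ ≤ ⌈x⌉₊ := by
    have : (t₀:ℝ) ≤ (⌈x⌉₊ : ℕ) := by linarith
    exact_mod_cast this
  have hnt : n ≤ ⌈x⌉₊ ^ ν := by
    have : (n:ℝ) ≤ ((⌈x⌉₊ : ℕ) : ℝ) ^ ν := by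
      rw [← hxν]; gcongr
    exact_mod_cast this
  refine le_trans ?_ (H _ htt n h3 hnt)
  have ht0 : (0:ℝ) < (⌈x⌉₊ : ℕ) := by linarith
  rw [le_div_iff₀ (by positivity)]
  calc (n:ℝ) ^ (-2 + c) * (32 * ((⌈x⌉₊ : ℕ) : ℝ) ^ α)
      ≤ (n:ℝ) ^ (-2 + c) * (32 * (2 * x) ^ α) := by gcongr
    _ = (32 * 2 ^ α) * ((n:ℝ) ^ (-2 + c) * (n:ℝ) ^ ((α:ℝ) / ν)) := by
        rw [mul_pow, hxα]; ring
    _ ≤ (n:ℝ) ^ (2 - c - α / ν) * ((n:ℝ) ^ (-2 + c) * (n:ℝ) ^ ((α:ℝ) / ν)) := by gcongr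
    _ = 1 := by
        rw [← Real.rpow_add hn0, ← Real.rpow_add hn0]
        rw [show 2 - c - (α:ℝ) / ν + (-2 + c + α / ν) = 0 by ring, Real.rpow_zero]

/-- the power saving in the unit square -/
theorem square (c : ℝ) (hc : c < 55 / 7797) :
    ∃ n₀ : ℕ, ∀ n : ℕ, n₀ ≤ n → (n:ℝ) ^ (-2 + c) ≤ LB.heilDelta n := by
  have hs : 0 < 220 - 31188 * c := by linarith
  obtain ⟨k, hk⟩ := exists_nat_gt ((2 + 140 * c) / (220 - 31188 * c))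
  rw [div_lt_iff₀ hs] at hk
  obtain ⟨t₀, H⟩ := points (220 * k + 1) (15209 * k + 69) (11301 * k + 51) (30858 * k + 140)
    (13255 * k + 60) (31078 * k + 141) (31188 * k + 140) (62156 * k + 282) (by omega) (by omega)
    (by omega) (by omega) (by omega) (by omega) (by omega) (by omega) (by omega)
  refine transfer _ _ _ c (by omega) ?_ t₀ H
  push_cast
  linarith

/-- the power saving in a region with an interior point -/
theorem region (K : Set (EuclideanSpace ℝ (Fin 2))) (hK : (interior K).Nonempty) (c : ℝ)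
    (hc : c < 55 / 7797) :
    ∃ n₀ : ℕ, ∀ n : ℕ, n₀ ≤ n → ∃ P : Finset (EuclideanSpace ℝ (Fin 2)), P.card = n ∧
      (∀ p ∈ P, p ∈ K) ∧ ∀ p ∈ P, ∀ q ∈ P, ∀ r ∈ P, p ≠ q → q ≠ r → p ≠ r →
        (n:ℝ) ^ (-2 + c) ≤ LB.tArea p q r := by
  classical
  obtain ⟨x₀, hx₀⟩ := hK
  obtain ⟨ρ, hρ, hball⟩ := Metric.mem_nhds_iff.1 (mem_interior_iff_mem_nhds.1 hx₀)
  obtain ⟨c₂, hc₂, hc₂'⟩ := exists_between hc
  obtain ⟨c₁, hc₁, hc₁'⟩ := exists_between hc₂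
  obtain ⟨n₁, hn₁⟩ := sets_of_bound c₁ c₂ hc₁' (square c₂ hc₂')
  obtain ⟨s, hs⟩ : ∃ s : ℝ, s = ρ / 2 := ⟨_, rfl⟩
  have hs0 : 0 < s := by rw [hs]; positivity
  obtain ⟨n₂, hn₂⟩ := eventually_atTop.1 ((ev_pow (1 / s ^ 2) (c₁ - c) (by linarith)).and
    (eventually_ge_atTop 1))
  refine ⟨max n₁ n₂, fun n hn => ?_⟩
  obtain ⟨P, hP1, hP2, hP3⟩ := hn₁ n (le_trans (le_max_left _ _) hn)
  obtain ⟨h1, h2⟩ := hn₂ n (le_trans (le_max_right _ _) hn)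
  have hn0 : (0:ℝ) < n := by exact_mod_cast (by omega : 0 < n)
  have hinj : Function.Injective (fun p : EuclideanSpace ℝ (Fin 2) => x₀ + s • p) := by
    intro p q h
    exact smul_right_injective _ hs0.ne' (add_left_cancel h)
  refine ⟨P.image fun p => x₀ + s • p, by rw [card_image_of_injective _ hinj, hP1], ?_, ?_⟩
  · intro p hp
    obtain ⟨y, hy, rfl⟩ := mem_image.1 hp
    apply hball
    rw [Metric.mem_ball, dist_eq_norm, add_sub_cancel_left, norm_smul, Real.norm_of_nonneg hs0.le]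
    have h3 : ‖y‖ < 2 := by
      rw [EuclideanSpace.norm_eq, Fin.sum_univ_two]
      rw [Real.sqrt_lt' (by norm_num), Real.norm_eq_abs, Real.norm_eq_abs, sq_abs, sq_abs]
      obtain ⟨a0, a1⟩ := hP2 y hy 0
      obtain ⟨b0, b1⟩ := hP2 y hy 1
      nlinarith
    calc s * ‖y‖ < s * 2 := by gcongr
      _ = ρ := by rw [hs]; ring
  · intro p hp q hq r hr hpq hqr hpr
    obtain ⟨p, hp', rfl⟩ := mem_image.1 hp
    obtain ⟨q, hq', rfl⟩ := mem_image.1 hq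
    obtain ⟨r, hr', rfl⟩ := mem_image.1 hr
    have h4 := hP3 p hp' q hq' r hr' (fun h => hpq (by rw [h])) (fun h => hqr (by rw [h]))
      (fun h => hpr (by rw [h]))
    have h5 : LB.tArea (x₀ + s • p) (x₀ + s • q) (x₀ + s • r) = s ^ 2 * LB.tArea p q r := by
      unfold LB.tArea
      simp only [PiLp.add_apply, PiLp.smul_apply, smul_eq_mul]
      rw [show (x₀ 0 + s * q 0 - (x₀ 0 + s * p 0)) * (x₀ 1 + s * r 1 - (x₀ 1 + s * p 1)) -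
          (x₀ 1 + s * q 1 - (x₀ 1 + s * p 1)) * (x₀ 0 + s * r 0 - (x₀ 0 + s * p 0)) =
          s ^ 2 * ((q 0 - p 0) * (r 1 - p 1) - (q 1 - p 1) * (r 0 - p 0)) by ring,
        abs_mul, abs_of_pos (by positivity : 0 < s ^ 2)]
      ring
    rw [h5]
    have h6 : 1 ≤ s ^ 2 * (n:ℝ) ^ (c₁ - c) := by
      rw [div_le_iff₀ (by positivity)] at h1
      linarith
    have h7 : 0 < (n:ℝ) ^ (-2 + c) := Real.rpow_pos_of_pos hn0 _
    calc (n:ℝ) ^ (-2 + c) = 1 * (n:ℝ) ^ (-2 + c) := by ring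
      _ ≤ (s ^ 2 * (n:ℝ) ^ (c₁ - c)) * (n:ℝ) ^ (-2 + c) := by gcongr
      _ = s ^ 2 * (n:ℝ) ^ (-2 + c₁) := by
          rw [mul_assoc, ← Real.rpow_add hn0]
          congr 2
          ring
      _ ≤ s ^ 2 * LB.tArea p q r := by gcongr

theorem notQ1 : ¬ (∀ ε : ℝ, 0 < ε → ∃ C : ℝ, ∃ n₀ : ℕ, ∀ n : ℕ, n₀ ≤ n →
    LB.heilDelta n ≤ C * (n:ℝ) ^ (-2 + ε)) := by
  obtain ⟨n₀, H⟩ := square (1 / 142) (by norm_num)
  exact LB.not_Q1_of_power (1 / 142) (by norm_num)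
    fun N => ⟨max n₀ N, le_max_right _ _, H _ (le_max_left _ _)⟩

end Vale.Agent.N036
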