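import Mathlib
import Vale.Agent.P036.LB.HeilDefs
import Vale.Agent.N036.Final

/-!
# Heilbronn's triangle problem: every exponent `c < 55/7797`, in every region
-/

namespace Vale.Agent.N036.OldSharperPower

open Vale.Agent.P036.LB

theorem sharper_power :
    -- (1) the power saving in the unit square
    (∀ c : ℝ, c < 55 / 7797 → ∃ n₀ : ℕ, ∀ n : ℕ, n₀ ≤ n → (n:ℝ) ^ (-2 + c) ≤ heilDelta n) ∧
    -- (2) point sets in every planar set with an interior point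
    (∀ K : Set (EuclideanSpace ℝ (Fin 2)), (interior K).Nonempty → ∀ c : ℝ, c < 55 / 7797 →
      ∃ n₀ : ℕ, ∀ n : ℕ, n₀ ≤ n → ∃ P : Finset (EuclideanSpace ℝ (Fin 2)), P.card = n ∧
        (∀ p ∈ P, p ∈ K) ∧ ∀ p ∈ P, ∀ q ∈ P, ∀ r ∈ P, p ≠ q → q ≠ r → p ≠ r →
          (n:ℝ) ^ (-2 + c) ≤ tArea p q r) :=
  ⟨Vale.Agent.N036.square, Vale.Agent.N036.region⟩

end Vale.Agent.N036.OldSharperPower
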